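import Vale.Agent.P236JL.Ck
import Vale.Agent.P236JL.D.Lo0
import Vale.Agent.P236JL.D.Rk

/-!
# P236JL / C : checks of the transposed tables (generated)
-/

namespace Vale.Agent.P236JL.C

open Vale.Agent.P236JL.D

theorem a0_0 : rgC (cA 0 lo0 rk) 0 58 = true := by decide +kernel
theorem a0_59 : rgC (cA 0 lo0 rk) 59 13 = true := by decide +kernel
theorem a0_73 : rgC (cA 0 lo0 rk) 73 7 = true := by decide +kernel
theorem a0_81 : rgC (cA 0 lo0 rk) 81 5 = true := by decide +kernel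
theorem a0_87 : rgC (cA 0 lo0 rk) 87 3 = true := by decide +kernel

theorem rA0 : Rg (cA 0 lo0 rk) 0 91 :=
  .cons 0 58 a0_0 <|
  .cons 59 13 a0_59 <|
  .cons 73 7 a0_73 <|
  .cons 81 5 a0_81 <|
  .cons 87 3 a0_87 <|
  .nil _ _

end Vale.Agent.P236JL.C
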