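import Vale.Agent.P236JL.Ck
import Vale.Agent.P236JL.D.Lo1
import Vale.Agent.P236JL.D.Rk

/-!
# P236JL / C : checks of the transposed tables (generated)
-/

namespace Vale.Agent.P236JL.C

open Vale.Agent.P236JL.D

theorem a1_0 : rgC (cA 1 lo1 rk) 0 50 = true := by decide +kernel
theorem a1_51 : rgC (cA 1 lo1 rk) 51 10 = true := by decide +kernel
theorem a1_62 : rgC (cA 1 lo1 rk) 62 6 = true := by decide +kernel
theorem a1_69 : rgC (cA 1 lo1 rk) 69 4 = true := by decide +kernel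
theorem a1_74 : rgC (cA 1 lo1 rk) 74 3 = true := by decide +kernel
theorem a1_78 : rgC (cA 1 lo1 rk) 78 2 = true := by decide +kernel
theorem a1_81 : rgC (cA 1 lo1 rk) 81 2 = true := by decide +kernel
theorem a1_84 : rgC (cA 1 lo1 rk) 84 1 = true := by decide +kernel
theorem a1_86 : rgC (cA 1 lo1 rk) 86 1 = true := by decide +kernel
theorem a1_88 : rgC (cA 1 lo1 rk) 88 1 = true := by decide +kernel
theorem a1_90 : rgC (cA 1 lo1 rk) 90 0 = true := by decide +kernel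

theorem rA1 : Rg (cA 1 lo1 rk) 0 91 :=
  .cons 0 50 a1_0 <|
  .cons 51 10 a1_51 <|
  .cons 62 6 a1_62 <|
  .cons 69 4 a1_69 <|
  .cons 74 3 a1_74 <|
  .cons 78 2 a1_78 <|
  .cons 81 2 a1_81 <|
  .cons 84 1 a1_84 <|
  .cons 86 1 a1_86 <|
  .cons 88 1 a1_88 <|
  .cons 90 0 a1_90 <|
  .nil _ _

end Vale.Agent.P236JL.C
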