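import Vale.Agent.P236JL.Ck
import Vale.Agent.P236JL.D.Lo10
import Vale.Agent.P236JL.D.Rk

/-!
# P236JL / C : checks of the transposed tables (generated)
-/

namespace Vale.Agent.P236JL.C

open Vale.Agent.P236JL.D

theorem a10_0 : rgC (cA 10 lo10 rk) 0 53 = true := by decide +kernel
theorem a10_54 : rgC (cA 10 lo10 rk) 54 11 = true := by decide +kernel
theorem a10_66 : rgC (cA 10 lo10 rk) 66 5 = true := by decide +kernel
theorem a10_72 : rgC (cA 10 lo10 rk) 72 3 = true := by decide +kernel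
theorem a10_76 : rgC (cA 10 lo10 rk) 76 2 = true := by decide +kernel
theorem a10_79 : rgC (cA 10 lo10 rk) 79 2 = true := by decide +kernel
theorem a10_82 : rgC (cA 10 lo10 rk) 82 1 = true := by decide +kernel
theorem a10_84 : rgC (cA 10 lo10 rk) 84 1 = true := by decide +kernel
theorem a10_86 : rgC (cA 10 lo10 rk) 86 1 = true := by decide +kernel
theorem a10_88 : rgC (cA 10 lo10 rk) 88 1 = true := by decide +kernel
theorem a10_90 : rgC (cA 10 lo10 rk) 90 0 = true := by decide +kernel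

theorem rA10 : Rg (cA 10 lo10 rk) 0 91 :=
  .cons 0 53 a10_0 <|
  .cons 54 11 a10_54 <|
  .cons 66 5 a10_66 <|
  .cons 72 3 a10_72 <|
  .cons 76 2 a10_76 <|
  .cons 79 2 a10_79 <|
  .cons 82 1 a10_82 <|
  .cons 84 1 a10_84 <|
  .cons 86 1 a10_86 <|
  .cons 88 1 a10_88 <|
  .cons 90 0 a10_90 <|
  .nil _ _

end Vale.Agent.P236JL.C
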