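import Vale.Agent.P236JL.Ck
import Vale.Agent.P236JL.D.Lo11
import Vale.Agent.P236JL.D.Rk

/-!
# P236JL / C : checks of the transposed tables (generated)
-/

namespace Vale.Agent.P236JL.C

open Vale.Agent.P236JL.D

theorem a11_0 : rgC (cA 11 lo11 rk) 0 53 = true := by decide +kernel
theorem a11_54 : rgC (cA 11 lo11 rk) 54 11 = true := by decide +kernel
theorem a11_66 : rgC (cA 11 lo11 rk) 66 6 = true := by decide +kernel
theorem a11_73 : rgC (cA 11 lo11 rk) 73 3 = true := by decide +kernel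
theorem a11_77 : rgC (cA 11 lo11 rk) 77 3 = true := by decide +kernel
theorem a11_81 : rgC (cA 11 lo11 rk) 81 2 = true := by decide +kernel
theorem a11_84 : rgC (cA 11 lo11 rk) 84 1 = true := by decide +kernel
theorem a11_86 : rgC (cA 11 lo11 rk) 86 1 = true := by decide +kernel
theorem a11_88 : rgC (cA 11 lo11 rk) 88 1 = true := by decide +kernel
theorem a11_90 : rgC (cA 11 lo11 rk) 90 0 = true := by decide +kernel

theorem rA11 : Rg (cA 11 lo11 rk) 0 91 :=
  .cons 0 53 a11_0 <|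
  .cons 54 11 a11_54 <|
  .cons 66 6 a11_66 <|
  .cons 73 3 a11_73 <|
  .cons 77 3 a11_77 <|
  .cons 81 2 a11_81 <|
  .cons 84 1 a11_84 <|
  .cons 86 1 a11_86 <|
  .cons 88 1 a11_88 <|
  .cons 90 0 a11_90 <|
  .nil _ _

end Vale.Agent.P236JL.C
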