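import Vale.Agent.P236JL.Ck
import Vale.Agent.P236JL.D.Lo12
import Vale.Agent.P236JL.D.Rk

/-!
# P236JL / C : checks of the transposed tables (generated)
-/

namespace Vale.Agent.P236JL.C

open Vale.Agent.P236JL.D

theorem a12_0 : rgC (cA 12 lo12 rk) 0 56 = true := by decide +kernel
theorem a12_57 : rgC (cA 12 lo12 rk) 57 11 = true := by decide +kernel
theorem a12_69 : rgC (cA 12 lo12 rk) 69 6 = true := by decide +kernel
theorem a12_76 : rgC (cA 12 lo12 rk) 76 3 = true := by decide +kernel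
theorem a12_80 : rgC (cA 12 lo12 rk) 80 2 = true := by decide +kernel
theorem a12_83 : rgC (cA 12 lo12 rk) 83 2 = true := by decide +kernel
theorem a12_86 : rgC (cA 12 lo12 rk) 86 1 = true := by decide +kernel
theorem a12_88 : rgC (cA 12 lo12 rk) 88 1 = true := by decide +kernel
theorem a12_90 : rgC (cA 12 lo12 rk) 90 0 = true := by decide +kernel

theorem rA12 : Rg (cA 12 lo12 rk) 0 91 :=
  .cons 0 56 a12_0 <|
  .cons 57 11 a12_57 <|
  .cons 69 6 a12_69 <|
  .cons 76 3 a12_76 <|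
  .cons 80 2 a12_80 <|
  .cons 83 2 a12_83 <|
  .cons 86 1 a12_86 <|
  .cons 88 1 a12_88 <|
  .cons 90 0 a12_90 <|
  .nil _ _

end Vale.Agent.P236JL.C
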