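import Vale.Agent.P236JL.Ck
import Vale.Agent.P236JL.D.Lo14
import Vale.Agent.P236JL.D.Rk

/-!
# P236JL / C : checks of the transposed tables (generated)
-/

namespace Vale.Agent.P236JL.C

open Vale.Agent.P236JL.D

theorem a14_0 : rgC (cA 14 lo14 rk) 0 60 = true := by decide +kernel
theorem a14_61 : rgC (cA 14 lo14 rk) 61 11 = true := by decide +kernel
theorem a14_73 : rgC (cA 14 lo14 rk) 73 6 = true := by decide +kernel
theorem a14_80 : rgC (cA 14 lo14 rk) 80 3 = true := by decide +kernel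
theorem a14_84 : rgC (cA 14 lo14 rk) 84 3 = true := by decide +kernel
theorem a14_88 : rgC (cA 14 lo14 rk) 88 2 = true := by decide +kernel

theorem rA14 : Rg (cA 14 lo14 rk) 0 91 :=
  .cons 0 60 a14_0 <|
  .cons 61 11 a14_61 <|
  .cons 73 6 a14_73 <|
  .cons 80 3 a14_80 <|
  .cons 84 3 a14_84 <|
  .cons 88 2 a14_88 <|
  .nil _ _

end Vale.Agent.P236JL.C
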