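import Vale.Agent.P236JL.Ck
import Vale.Agent.P236JL.D.Lo15
import Vale.Agent.P236JL.D.Rk

/-!
# P236JL / C : checks of the transposed tables (generated)
-/

namespace Vale.Agent.P236JL.C

open Vale.Agent.P236JL.D

theorem a15_0 : rgC (cA 15 lo15 rk) 0 61 = true := by decide +kernel
theorem a15_62 : rgC (cA 15 lo15 rk) 62 12 = true := by decide +kernel
theorem a15_75 : rgC (cA 15 lo15 rk) 75 5 = true := by decide +kernel
theorem a15_81 : rgC (cA 15 lo15 rk) 81 4 = true := by decide +kernel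
theorem a15_86 : rgC (cA 15 lo15 rk) 86 3 = true := by decide +kernel
theorem a15_90 : rgC (cA 15 lo15 rk) 90 0 = true := by decide +kernel

theorem rA15 : Rg (cA 15 lo15 rk) 0 91 :=
  .cons 0 61 a15_0 <|
  .cons 62 12 a15_62 <|
  .cons 75 5 a15_75 <|
  .cons 81 4 a15_81 <|
  .cons 86 3 a15_86 <|
  .cons 90 0 a15_90 <|
  .nil _ _

end Vale.Agent.P236JL.C
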