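import Vale.Agent.P236JL.Ck
import Vale.Agent.P236JL.D.Lo16
import Vale.Agent.P236JL.D.Rk

/-!
# P236JL / C : checks of the transposed tables (generated)
-/

namespace Vale.Agent.P236JL.C

open Vale.Agent.P236JL.D

theorem a16_0 : rgC (cA 16 lo16 rk) 0 63 = true := by decide +kernel
theorem a16_64 : rgC (cA 16 lo16 rk) 64 12 = true := by decide +kernel
theorem a16_77 : rgC (cA 16 lo16 rk) 77 5 = true := by decide +kernel
theorem a16_83 : rgC (cA 16 lo16 rk) 83 4 = true := by decide +kernel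
theorem a16_88 : rgC (cA 16 lo16 rk) 88 2 = true := by decide +kernel

theorem rA16 : Rg (cA 16 lo16 rk) 0 91 :=
  .cons 0 63 a16_0 <|
  .cons 64 12 a16_64 <|
  .cons 77 5 a16_77 <|
  .cons 83 4 a16_83 <|
  .cons 88 2 a16_88 <|
  .nil _ _

end Vale.Agent.P236JL.C
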