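import Vale.Agent.P236JL.Ck
import Vale.Agent.P236JL.D.Lo17
import Vale.Agent.P236JL.D.Rk

/-!
# P236JL / C : checks of the transposed tables (generated)
-/

namespace Vale.Agent.P236JL.C

open Vale.Agent.P236JL.D

theorem a17_0 : rgC (cA 17 lo17 rk) 0 65 = true := by decide +kernel
theorem a17_66 : rgC (cA 17 lo17 rk) 66 11 = true := by decide +kernel
theorem a17_78 : rgC (cA 17 lo17 rk) 78 6 = true := by decide +kernel
theorem a17_85 : rgC (cA 17 lo17 rk) 85 3 = true := by decide +kernel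
theorem a17_89 : rgC (cA 17 lo17 rk) 89 1 = true := by decide +kernel

theorem rA17 : Rg (cA 17 lo17 rk) 0 91 :=
  .cons 0 65 a17_0 <|
  .cons 66 11 a17_66 <|
  .cons 78 6 a17_78 <|
  .cons 85 3 a17_85 <|
  .cons 89 1 a17_89 <|
  .nil _ _

end Vale.Agent.P236JL.C
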