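import Vale.Agent.P236JL.Ck
import Vale.Agent.P236JL.D.Lo18
import Vale.Agent.P236JL.D.Rk

/-!
# P236JL / C : checks of the transposed tables (generated)
-/

namespace Vale.Agent.P236JL.C

open Vale.Agent.P236JL.D

theorem a18_0 : rgC (cA 18 lo18 rk) 0 66 = true := by decide +kernel
theorem a18_67 : rgC (cA 18 lo18 rk) 67 12 = true := by decide +kernel
theorem a18_80 : rgC (cA 18 lo18 rk) 80 5 = true := by decide +kernel
theorem a18_86 : rgC (cA 18 lo18 rk) 86 4 = true := by decide +kernel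

theorem rA18 : Rg (cA 18 lo18 rk) 0 91 :=
  .cons 0 66 a18_0 <|
  .cons 67 12 a18_67 <|
  .cons 80 5 a18_80 <|
  .cons 86 4 a18_86 <|
  .nil _ _

end Vale.Agent.P236JL.C
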