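import Vale.Agent.P236JL.Ck
import Vale.Agent.P236JL.D.Lo2
import Vale.Agent.P236JL.D.Rk

/-!
# P236JL / C : checks of the transposed tables (generated)
-/

namespace Vale.Agent.P236JL.C

open Vale.Agent.P236JL.D

theorem a2_0 : rgC (cA 2 lo2 rk) 0 46 = true := by decide +kernel
theorem a2_47 : rgC (cA 2 lo2 rk) 47 10 = true := by decide +kernel
theorem a2_58 : rgC (cA 2 lo2 rk) 58 5 = true := by decide +kernel
theorem a2_64 : rgC (cA 2 lo2 rk) 64 3 = true := by decide +kernel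
theorem a2_68 : rgC (cA 2 lo2 rk) 68 2 = true := by decide +kernel
theorem a2_71 : rgC (cA 2 lo2 rk) 71 2 = true := by decide +kernel
theorem a2_74 : rgC (cA 2 lo2 rk) 74 1 = true := by decide +kernel
theorem a2_76 : rgC (cA 2 lo2 rk) 76 1 = true := by decide +kernel
theorem a2_78 : rgC (cA 2 lo2 rk) 78 1 = true := by decide +kernel
theorem a2_80 : rgC (cA 2 lo2 rk) 80 1 = true := by decide +kernel
theorem a2_82 : rgC (cA 2 lo2 rk) 82 1 = true := by decide +kernel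
theorem a2_84 : rgC (cA 2 lo2 rk) 84 0 = true := by decide +kernel
theorem a2_85 : rgC (cA 2 lo2 rk) 85 0 = true := by decide +kernel
theorem a2_86 : rgC (cA 2 lo2 rk) 86 0 = true := by decide +kernel
theorem a2_87 : rgC (cA 2 lo2 rk) 87 0 = true := by decide +kernel
theorem a2_88 : rgC (cA 2 lo2 rk) 88 0 = true := by decide +kernel
theorem a2_89 : rgC (cA 2 lo2 rk) 89 0 = true := by decide +kernel
theorem a2_90 : rgC (cA 2 lo2 rk) 90 0 = true := by decide +kernel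

theorem rA2 : Rg (cA 2 lo2 rk) 0 91 :=
  .cons 0 46 a2_0 <|
  .cons 47 10 a2_47 <|
  .cons 58 5 a2_58 <|
  .cons 64 3 a2_64 <|
  .cons 68 2 a2_68 <|
  .cons 71 2 a2_71 <|
  .cons 74 1 a2_74 <|
  .cons 76 1 a2_76 <|
  .cons 78 1 a2_78 <|
  .cons 80 1 a2_80 <|
  .cons 82 1 a2_82 <|
  .cons 84 0 a2_84 <|
  .cons 85 0 a2_85 <|
  .cons 86 0 a2_86 <|
  .cons 87 0 a2_87 <|
  .cons 88 0 a2_88 <|
  .cons 89 0 a2_89 <|
  .cons 90 0 a2_90 <|
  .nil _ _

end Vale.Agent.P236JL.C
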