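import Vale.Agent.P236JL.Ck
import Vale.Agent.P236JL.D.Lo3
import Vale.Agent.P236JL.D.Rk

/-!
# P236JL / C : checks of the transposed tables (generated)
-/

namespace Vale.Agent.P236JL.C

open Vale.Agent.P236JL.D

theorem a3_0 : rgC (cA 3 lo3 rk) 0 44 = true := by decide +kernel
theorem a3_45 : rgC (cA 3 lo3 rk) 45 10 = true := by decide +kernel
theorem a3_56 : rgC (cA 3 lo3 rk) 56 5 = true := by decide +kernel
theorem a3_62 : rgC (cA 3 lo3 rk) 62 3 = true := by decide +kernel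
theorem a3_66 : rgC (cA 3 lo3 rk) 66 2 = true := by decide +kernel
theorem a3_69 : rgC (cA 3 lo3 rk) 69 2 = true := by decide +kernel
theorem a3_72 : rgC (cA 3 lo3 rk) 72 1 = true := by decide +kernel
theorem a3_74 : rgC (cA 3 lo3 rk) 74 1 = true := by decide +kernel
theorem a3_76 : rgC (cA 3 lo3 rk) 76 1 = true := by decide +kernel
theorem a3_78 : rgC (cA 3 lo3 rk) 78 1 = true := by decide +kernel
theorem a3_80 : rgC (cA 3 lo3 rk) 80 0 = true := by decide +kernel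
theorem a3_81 : rgC (cA 3 lo3 rk) 81 0 = true := by decide +kernel
theorem a3_82 : rgC (cA 3 lo3 rk) 82 0 = true := by decide +kernel
theorem a3_83 : rgC (cA 3 lo3 rk) 83 0 = true := by decide +kernel
theorem a3_84 : rgC (cA 3 lo3 rk) 84 0 = true := by decide +kernel
theorem a3_85 : rgC (cA 3 lo3 rk) 85 0 = true := by decide +kernel
theorem a3_86 : rgC (cA 3 lo3 rk) 86 0 = true := by decide +kernel
theorem a3_87 : rgC (cA 3 lo3 rk) 87 0 = true := by decide +kernel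
theorem a3_88 : rgC (cA 3 lo3 rk) 88 0 = true := by decide +kernel
theorem a3_89 : rgC (cA 3 lo3 rk) 89 0 = true := by decide +kernel
theorem a3_90 : rgC (cA 3 lo3 rk) 90 0 = true := by decide +kernel

theorem rA3 : Rg (cA 3 lo3 rk) 0 91 :=
  .cons 0 44 a3_0 <|
  .cons 45 10 a3_45 <|
  .cons 56 5 a3_56 <|
  .cons 62 3 a3_62 <|
  .cons 66 2 a3_66 <|
  .cons 69 2 a3_69 <|
  .cons 72 1 a3_72 <|
  .cons 74 1 a3_74 <|
  .cons 76 1 a3_76 <|
  .cons 78 1 a3_78 <|
  .cons 80 0 a3_80 <|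
  .cons 81 0 a3_81 <|
  .cons 82 0 a3_82 <|
  .cons 83 0 a3_83 <|
  .cons 84 0 a3_84 <|
  .cons 85 0 a3_85 <|
  .cons 86 0 a3_86 <|
  .cons 87 0 a3_87 <|
  .cons 88 0 a3_88 <|
  .cons 89 0 a3_89 <|
  .cons 90 0 a3_90 <|
  .nil _ _

end Vale.Agent.P236JL.C
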