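import Vale.Agent.P236JL.Ck
import Vale.Agent.P236JL.D.Lo4
import Vale.Agent.P236JL.D.Rk

/-!
# P236JL / C : checks of the transposed tables (generated)
-/

namespace Vale.Agent.P236JL.C

open Vale.Agent.P236JL.D

theorem a4_0 : rgC (cA 4 lo4 rk) 0 44 = true := by decide +kernel
theorem a4_45 : rgC (cA 4 lo4 rk) 45 10 = true := by decide +kernel
theorem a4_56 : rgC (cA 4 lo4 rk) 56 5 = true := by decide +kernel
theorem a4_62 : rgC (cA 4 lo4 rk) 62 3 = true := by decide +kernel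
theorem a4_66 : rgC (cA 4 lo4 rk) 66 3 = true := by decide +kernel
theorem a4_70 : rgC (cA 4 lo4 rk) 70 2 = true := by decide +kernel
theorem a4_73 : rgC (cA 4 lo4 rk) 73 1 = true := by decide +kernel
theorem a4_75 : rgC (cA 4 lo4 rk) 75 1 = true := by decide +kernel
theorem a4_77 : rgC (cA 4 lo4 rk) 77 1 = true := by decide +kernel
theorem a4_79 : rgC (cA 4 lo4 rk) 79 0 = true := by decide +kernel
theorem a4_80 : rgC (cA 4 lo4 rk) 80 0 = true := by decide +kernel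
theorem a4_81 : rgC (cA 4 lo4 rk) 81 0 = true := by decide +kernel
theorem a4_82 : rgC (cA 4 lo4 rk) 82 0 = true := by decide +kernel
theorem a4_83 : rgC (cA 4 lo4 rk) 83 0 = true := by decide +kernel
theorem a4_84 : rgC (cA 4 lo4 rk) 84 0 = true := by decide +kernel
theorem a4_85 : rgC (cA 4 lo4 rk) 85 0 = true := by decide +kernel
theorem a4_86 : rgC (cA 4 lo4 rk) 86 0 = true := by decide +kernel
theorem a4_87 : rgC (cA 4 lo4 rk) 87 0 = true := by decide +kernel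
theorem a4_88 : rgC (cA 4 lo4 rk) 88 0 = true := by decide +kernel
theorem a4_89 : rgC (cA 4 lo4 rk) 89 0 = true := by decide +kernel
theorem a4_90 : rgC (cA 4 lo4 rk) 90 0 = true := by decide +kernel

theorem rA4 : Rg (cA 4 lo4 rk) 0 91 :=
  .cons 0 44 a4_0 <|
  .cons 45 10 a4_45 <|
  .cons 56 5 a4_56 <|
  .cons 62 3 a4_62 <|
  .cons 66 3 a4_66 <|
  .cons 70 2 a4_70 <|
  .cons 73 1 a4_73 <|
  .cons 75 1 a4_75 <|
  .cons 77 1 a4_77 <|
  .cons 79 0 a4_79 <|
  .cons 80 0 a4_80 <|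
  .cons 81 0 a4_81 <|
  .cons 82 0 a4_82 <|
  .cons 83 0 a4_83 <|
  .cons 84 0 a4_84 <|
  .cons 85 0 a4_85 <|
  .cons 86 0 a4_86 <|
  .cons 87 0 a4_87 <|
  .cons 88 0 a4_88 <|
  .cons 89 0 a4_89 <|
  .cons 90 0 a4_90 <|
  .nil _ _

end Vale.Agent.P236JL.C
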