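import Vale.Agent.P236JL.Ck
import Vale.Agent.P236JL.D.Lo5
import Vale.Agent.P236JL.D.Rk

/-!
# P236JL / C : checks of the transposed tables (generated)
-/

namespace Vale.Agent.P236JL.C

open Vale.Agent.P236JL.D

theorem a5_0 : rgC (cA 5 lo5 rk) 0 45 = true := by decide +kernel
theorem a5_46 : rgC (cA 5 lo5 rk) 46 10 = true := by decide +kernel
theorem a5_57 : rgC (cA 5 lo5 rk) 57 6 = true := by decide +kernel
theorem a5_64 : rgC (cA 5 lo5 rk) 64 3 = true := by decide +kernel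
theorem a5_68 : rgC (cA 5 lo5 rk) 68 2 = true := by decide +kernel
theorem a5_71 : rgC (cA 5 lo5 rk) 71 2 = true := by decide +kernel
theorem a5_74 : rgC (cA 5 lo5 rk) 74 1 = true := by decide +kernel
theorem a5_76 : rgC (cA 5 lo5 rk) 76 1 = true := by decide +kernel
theorem a5_78 : rgC (cA 5 lo5 rk) 78 1 = true := by decide +kernel
theorem a5_80 : rgC (cA 5 lo5 rk) 80 1 = true := by decide +kernel
theorem a5_82 : rgC (cA 5 lo5 rk) 82 0 = true := by decide +kernel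
theorem a5_83 : rgC (cA 5 lo5 rk) 83 0 = true := by decide +kernel
theorem a5_84 : rgC (cA 5 lo5 rk) 84 0 = true := by decide +kernel
theorem a5_85 : rgC (cA 5 lo5 rk) 85 0 = true := by decide +kernel
theorem a5_86 : rgC (cA 5 lo5 rk) 86 0 = true := by decide +kernel
theorem a5_87 : rgC (cA 5 lo5 rk) 87 0 = true := by decide +kernel
theorem a5_88 : rgC (cA 5 lo5 rk) 88 0 = true := by decide +kernel
theorem a5_89 : rgC (cA 5 lo5 rk) 89 0 = true := by decide +kernel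
theorem a5_90 : rgC (cA 5 lo5 rk) 90 0 = true := by decide +kernel

theorem rA5 : Rg (cA 5 lo5 rk) 0 91 :=
  .cons 0 45 a5_0 <|
  .cons 46 10 a5_46 <|
  .cons 57 6 a5_57 <|
  .cons 64 3 a5_64 <|
  .cons 68 2 a5_68 <|
  .cons 71 2 a5_71 <|
  .cons 74 1 a5_74 <|
  .cons 76 1 a5_76 <|
  .cons 78 1 a5_78 <|
  .cons 80 1 a5_80 <|
  .cons 82 0 a5_82 <|
  .cons 83 0 a5_83 <|
  .cons 84 0 a5_84 <|
  .cons 85 0 a5_85 <|
  .cons 86 0 a5_86 <|
  .cons 87 0 a5_87 <|
  .cons 88 0 a5_88 <|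
  .cons 89 0 a5_89 <|
  .cons 90 0 a5_90 <|
  .nil _ _

end Vale.Agent.P236JL.C
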