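import Vale.Agent.P236JL.Ck
import Vale.Agent.P236JL.D.Lo6
import Vale.Agent.P236JL.D.Rk

/-!
# P236JL / C : checks of the transposed tables (generated)
-/

namespace Vale.Agent.P236JL.C

open Vale.Agent.P236JL.D

theorem a6_0 : rgC (cA 6 lo6 rk) 0 47 = true := by decide +kernel
theorem a6_48 : rgC (cA 6 lo6 rk) 48 11 = true := by decide +kernel
theorem a6_60 : rgC (cA 6 lo6 rk) 60 6 = true := by decide +kernel
theorem a6_67 : rgC (cA 6 lo6 rk) 67 3 = true := by decide +kernel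
theorem a6_71 : rgC (cA 6 lo6 rk) 71 3 = true := by decide +kernel
theorem a6_75 : rgC (cA 6 lo6 rk) 75 2 = true := by decide +kernel
theorem a6_78 : rgC (cA 6 lo6 rk) 78 1 = true := by decide +kernel
theorem a6_80 : rgC (cA 6 lo6 rk) 80 1 = true := by decide +kernel
theorem a6_82 : rgC (cA 6 lo6 rk) 82 1 = true := by decide +kernel
theorem a6_84 : rgC (cA 6 lo6 rk) 84 1 = true := by decide +kernel
theorem a6_86 : rgC (cA 6 lo6 rk) 86 0 = true := by decide +kernel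
theorem a6_87 : rgC (cA 6 lo6 rk) 87 0 = true := by decide +kernel
theorem a6_88 : rgC (cA 6 lo6 rk) 88 0 = true := by decide +kernel
theorem a6_89 : rgC (cA 6 lo6 rk) 89 0 = true := by decide +kernel
theorem a6_90 : rgC (cA 6 lo6 rk) 90 0 = true := by decide +kernel

theorem rA6 : Rg (cA 6 lo6 rk) 0 91 :=
  .cons 0 47 a6_0 <|
  .cons 48 11 a6_48 <|
  .cons 60 6 a6_60 <|
  .cons 67 3 a6_67 <|
  .cons 71 3 a6_71 <|
  .cons 75 2 a6_75 <|
  .cons 78 1 a6_78 <|
  .cons 80 1 a6_80 <|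
  .cons 82 1 a6_82 <|
  .cons 84 1 a6_84 <|
  .cons 86 0 a6_86 <|
  .cons 87 0 a6_87 <|
  .cons 88 0 a6_88 <|
  .cons 89 0 a6_89 <|
  .cons 90 0 a6_90 <|
  .nil _ _

end Vale.Agent.P236JL.C
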