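import Vale.Agent.P236JL.Ck
import Vale.Agent.P236JL.D.Lo7
import Vale.Agent.P236JL.D.Rk

/-!
# P236JL / C : checks of the transposed tables (generated)
-/

namespace Vale.Agent.P236JL.C

open Vale.Agent.P236JL.D

theorem a7_0 : rgC (cA 7 lo7 rk) 0 49 = true := by decide +kernel
theorem a7_50 : rgC (cA 7 lo7 rk) 50 11 = true := by decide +kernel
theorem a7_62 : rgC (cA 7 lo7 rk) 62 5 = true := by decide +kernel
theorem a7_68 : rgC (cA 7 lo7 rk) 68 3 = true := by decide +kernel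
theorem a7_72 : rgC (cA 7 lo7 rk) 72 3 = true := by decide +kernel
theorem a7_76 : rgC (cA 7 lo7 rk) 76 2 = true := by decide +kernel
theorem a7_79 : rgC (cA 7 lo7 rk) 79 1 = true := by decide +kernel
theorem a7_81 : rgC (cA 7 lo7 rk) 81 1 = true := by decide +kernel
theorem a7_83 : rgC (cA 7 lo7 rk) 83 1 = true := by decide +kernel
theorem a7_85 : rgC (cA 7 lo7 rk) 85 1 = true := by decide +kernel
theorem a7_87 : rgC (cA 7 lo7 rk) 87 0 = true := by decide +kernel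
theorem a7_88 : rgC (cA 7 lo7 rk) 88 0 = true := by decide +kernel
theorem a7_89 : rgC (cA 7 lo7 rk) 89 0 = true := by decide +kernel
theorem a7_90 : rgC (cA 7 lo7 rk) 90 0 = true := by decide +kernel

theorem rA7 : Rg (cA 7 lo7 rk) 0 91 :=
  .cons 0 49 a7_0 <|
  .cons 50 11 a7_50 <|
  .cons 62 5 a7_62 <|
  .cons 68 3 a7_68 <|
  .cons 72 3 a7_72 <|
  .cons 76 2 a7_76 <|
  .cons 79 1 a7_79 <|
  .cons 81 1 a7_81 <|
  .cons 83 1 a7_83 <|
  .cons 85 1 a7_85 <|
  .cons 87 0 a7_87 <|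
  .cons 88 0 a7_88 <|
  .cons 89 0 a7_89 <|
  .cons 90 0 a7_90 <|
  .nil _ _

end Vale.Agent.P236JL.C
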