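import Vale.Agent.P236JL.Ck
import Vale.Agent.P236JL.D.Lo8
import Vale.Agent.P236JL.D.Rk

/-!
# P236JL / C : checks of the transposed tables (generated)
-/

namespace Vale.Agent.P236JL.C

open Vale.Agent.P236JL.D

theorem a8_0 : rgC (cA 8 lo8 rk) 0 51 = true := by decide +kernel
theorem a8_52 : rgC (cA 8 lo8 rk) 52 11 = true := by decide +kernel
theorem a8_64 : rgC (cA 8 lo8 rk) 64 5 = true := by decide +kernel
theorem a8_70 : rgC (cA 8 lo8 rk) 70 3 = true := by decide +kernel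
theorem a8_74 : rgC (cA 8 lo8 rk) 74 2 = true := by decide +kernel
theorem a8_77 : rgC (cA 8 lo8 rk) 77 2 = true := by decide +kernel
theorem a8_80 : rgC (cA 8 lo8 rk) 80 1 = true := by decide +kernel
theorem a8_82 : rgC (cA 8 lo8 rk) 82 1 = true := by decide +kernel
theorem a8_84 : rgC (cA 8 lo8 rk) 84 1 = true := by decide +kernel
theorem a8_86 : rgC (cA 8 lo8 rk) 86 1 = true := by decide +kernel
theorem a8_88 : rgC (cA 8 lo8 rk) 88 0 = true := by decide +kernel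
theorem a8_89 : rgC (cA 8 lo8 rk) 89 0 = true := by decide +kernel
theorem a8_90 : rgC (cA 8 lo8 rk) 90 0 = true := by decide +kernel

theorem rA8 : Rg (cA 8 lo8 rk) 0 91 :=
  .cons 0 51 a8_0 <|
  .cons 52 11 a8_52 <|
  .cons 64 5 a8_64 <|
  .cons 70 3 a8_70 <|
  .cons 74 2 a8_74 <|
  .cons 77 2 a8_77 <|
  .cons 80 1 a8_80 <|
  .cons 82 1 a8_82 <|
  .cons 84 1 a8_84 <|
  .cons 86 1 a8_86 <|
  .cons 88 0 a8_88 <|
  .cons 89 0 a8_89 <|
  .cons 90 0 a8_90 <|
  .nil _ _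

end Vale.Agent.P236JL.C
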