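import Vale.Agent.P236JL.Ck
import Vale.Agent.P236JL.D.Up1

/-!
# P236JL / C : checks of the transposed tables (generated)
-/

namespace Vale.Agent.P236JL.C

open Vale.Agent.P236JL.D

theorem t1_0 : rgC (cT 1 up1 23) 0 0 = true := by decide +kernel
theorem t1_1 : rgC (cT 1 up1 23) 1 0 = true := by decide +kernel
theorem t1_2 : rgC (cT 1 up1 23) 2 0 = true := by decide +kernel
theorem t1_3 : rgC (cT 1 up1 23) 3 1 = true := by decide +kernel

theorem rT1 : Rg (cT 1 up1 23) 0 5 :=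
  .cons 0 0 t1_0 <|
  .cons 1 0 t1_1 <|
  .cons 2 0 t1_2 <|
  .cons 3 1 t1_3 <|
  .nil _ _

end Vale.Agent.P236JL.C
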