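import Vale.Agent.P236JL.Ck
import Vale.Agent.P236JL.D.Up11

/-!
# P236JL / C : checks of the transposed tables (generated)
-/

namespace Vale.Agent.P236JL.C

open Vale.Agent.P236JL.D

theorem t11_0 : rgC (cT 11 up11 19) 0 0 = true := by decide +kernel
theorem t11_1 : rgC (cT 11 up11 19) 1 0 = true := by decide +kernel
theorem t11_2 : rgC (cT 11 up11 19) 2 0 = true := by decide +kernel
theorem t11_3 : rgC (cT 11 up11 19) 3 0 = true := by decide +kernel
theorem t11_4 : rgC (cT 11 up11 19) 4 0 = true := by decide +kernel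
theorem t11_5 : rgC (cT 11 up11 19) 5 0 = true := by decide +kernel
theorem t11_6 : rgC (cT 11 up11 19) 6 0 = true := by decide +kernel
theorem t11_7 : rgC (cT 11 up11 19) 7 0 = true := by decide +kernel
theorem t11_8 : rgC (cT 11 up11 19) 8 0 = true := by decide +kernel
theorem t11_9 : rgC (cT 11 up11 19) 9 1 = true := by decide +kernel
theorem t11_11 : rgC (cT 11 up11 19) 11 2 = true := by decide +kernel
theorem t11_14 : rgC (cT 11 up11 19) 14 3 = true := by decide +kernel
theorem t11_18 : rgC (cT 11 up11 19) 18 4 = true := by decide +kernel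
theorem t11_23 : rgC (cT 11 up11 19) 23 5 = true := by decide +kernel
theorem t11_29 : rgC (cT 11 up11 19) 29 10 = true := by decide +kernel
theorem t11_40 : rgC (cT 11 up11 19) 40 3 = true := by decide +kernel

theorem rT11 : Rg (cT 11 up11 19) 0 44 :=
  .cons 0 0 t11_0 <|
  .cons 1 0 t11_1 <|
  .cons 2 0 t11_2 <|
  .cons 3 0 t11_3 <|
  .cons 4 0 t11_4 <|
  .cons 5 0 t11_5 <|
  .cons 6 0 t11_6 <|
  .cons 7 0 t11_7 <|
  .cons 8 0 t11_8 <|
  .cons 9 1 t11_9 <|
  .cons 11 2 t11_11 <|
  .cons 14 3 t11_14 <|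
  .cons 18 4 t11_18 <|
  .cons 23 5 t11_23 <|
  .cons 29 10 t11_29 <|
  .cons 40 3 t11_40 <|
  .nil _ _

end Vale.Agent.P236JL.C
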