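import Vale.Agent.P236JL.Ck
import Vale.Agent.P236JL.D.Up12

/-!
# P236JL / C : checks of the transposed tables (generated)
-/

namespace Vale.Agent.P236JL.C

open Vale.Agent.P236JL.D

theorem t12_0 : rgC (cT 12 up12 19) 0 0 = true := by decide +kernel
theorem t12_1 : rgC (cT 12 up12 19) 1 0 = true := by decide +kernel
theorem t12_2 : rgC (cT 12 up12 19) 2 0 = true := by decide +kernel
theorem t12_3 : rgC (cT 12 up12 19) 3 0 = true := by decide +kernel
theorem t12_4 : rgC (cT 12 up12 19) 4 0 = true := by decide +kernel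
theorem t12_5 : rgC (cT 12 up12 19) 5 0 = true := by decide +kernel
theorem t12_6 : rgC (cT 12 up12 19) 6 0 = true := by decide +kernel
theorem t12_7 : rgC (cT 12 up12 19) 7 0 = true := by decide +kernel
theorem t12_8 : rgC (cT 12 up12 19) 8 0 = true := by decide +kernel
theorem t12_9 : rgC (cT 12 up12 19) 9 1 = true := by decide +kernel
theorem t12_11 : rgC (cT 12 up12 19) 11 3 = true := by decide +kernel
theorem t12_15 : rgC (cT 12 up12 19) 15 4 = true := by decide +kernel
theorem t12_20 : rgC (cT 12 up12 19) 20 6 = true := by decide +kernel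
theorem t12_27 : rgC (cT 12 up12 19) 27 12 = true := by decide +kernel

theorem rT12 : Rg (cT 12 up12 19) 0 40 :=
  .cons 0 0 t12_0 <|
  .cons 1 0 t12_1 <|
  .cons 2 0 t12_2 <|
  .cons 3 0 t12_3 <|
  .cons 4 0 t12_4 <|
  .cons 5 0 t12_5 <|
  .cons 6 0 t12_6 <|
  .cons 7 0 t12_7 <|
  .cons 8 0 t12_8 <|
  .cons 9 1 t12_9 <|
  .cons 11 3 t12_11 <|
  .cons 15 4 t12_15 <|
  .cons 20 6 t12_20 <|
  .cons 27 12 t12_27 <|
  .nil _ _

end Vale.Agent.P236JL.C
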