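import Vale.Agent.P236JL.Ck
import Vale.Agent.P236JL.D.Up13

/-!
# P236JL / C : checks of the transposed tables (generated)
-/

namespace Vale.Agent.P236JL.C

open Vale.Agent.P236JL.D

theorem t13_0 : rgC (cT 13 up13 19) 0 0 = true := by decide +kernel
theorem t13_1 : rgC (cT 13 up13 19) 1 0 = true := by decide +kernel
theorem t13_2 : rgC (cT 13 up13 19) 2 0 = true := by decide +kernel
theorem t13_3 : rgC (cT 13 up13 19) 3 0 = true := by decide +kernel
theorem t13_4 : rgC (cT 13 up13 19) 4 0 = true := by decide +kernel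
theorem t13_5 : rgC (cT 13 up13 19) 5 0 = true := by decide +kernel
theorem t13_6 : rgC (cT 13 up13 19) 6 0 = true := by decide +kernel
theorem t13_7 : rgC (cT 13 up13 19) 7 1 = true := by decide +kernel
theorem t13_9 : rgC (cT 13 up13 19) 9 2 = true := by decide +kernel
theorem t13_12 : rgC (cT 13 up13 19) 12 4 = true := by decide +kernel
theorem t13_17 : rgC (cT 13 up13 19) 17 6 = true := by decide +kernel
theorem t13_24 : rgC (cT 13 up13 19) 24 9 = true := by decide +kernel

theorem rT13 : Rg (cT 13 up13 19) 0 34 :=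
  .cons 0 0 t13_0 <|
  .cons 1 0 t13_1 <|
  .cons 2 0 t13_2 <|
  .cons 3 0 t13_3 <|
  .cons 4 0 t13_4 <|
  .cons 5 0 t13_5 <|
  .cons 6 0 t13_6 <|
  .cons 7 1 t13_7 <|
  .cons 9 2 t13_9 <|
  .cons 12 4 t13_12 <|
  .cons 17 6 t13_17 <|
  .cons 24 9 t13_24 <|
  .nil _ _

end Vale.Agent.P236JL.C
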