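import Vale.Agent.P236JL.Ck
import Vale.Agent.P236JL.D.Up14

/-!
# P236JL / C : checks of the transposed tables (generated)
-/

namespace Vale.Agent.P236JL.C

open Vale.Agent.P236JL.D

theorem t14_0 : rgC (cT 14 up14 18) 0 0 = true := by decide +kernel
theorem t14_1 : rgC (cT 14 up14 18) 1 0 = true := by decide +kernel
theorem t14_2 : rgC (cT 14 up14 18) 2 0 = true := by decide +kernel
theorem t14_3 : rgC (cT 14 up14 18) 3 0 = true := by decide +kernel
theorem t14_4 : rgC (cT 14 up14 18) 4 0 = true := by decide +kernel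
theorem t14_5 : rgC (cT 14 up14 18) 5 1 = true := by decide +kernel
theorem t14_7 : rgC (cT 14 up14 18) 7 1 = true := by decide +kernel
theorem t14_9 : rgC (cT 14 up14 18) 9 2 = true := by decide +kernel
theorem t14_12 : rgC (cT 14 up14 18) 12 4 = true := by decide +kernel
theorem t14_17 : rgC (cT 14 up14 18) 17 9 = true := by decide +kernel
theorem t14_27 : rgC (cT 14 up14 18) 27 4 = true := by decide +kernel

theorem rT14 : Rg (cT 14 up14 18) 0 32 :=
  .cons 0 0 t14_0 <|
  .cons 1 0 t14_1 <|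
  .cons 2 0 t14_2 <|
  .cons 3 0 t14_3 <|
  .cons 4 0 t14_4 <|
  .cons 5 1 t14_5 <|
  .cons 7 1 t14_7 <|
  .cons 9 2 t14_9 <|
  .cons 12 4 t14_12 <|
  .cons 17 9 t14_17 <|
  .cons 27 4 t14_27 <|
  .nil _ _

end Vale.Agent.P236JL.C
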