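import Vale.Agent.P236JL.Ck
import Vale.Agent.P236JL.D.Up15

/-!
# P236JL / C : checks of the transposed tables (generated)
-/

namespace Vale.Agent.P236JL.C

open Vale.Agent.P236JL.D

theorem t15_0 : rgC (cT 15 up15 18) 0 0 = true := by decide +kernel
theorem t15_1 : rgC (cT 15 up15 18) 1 0 = true := by decide +kernel
theorem t15_2 : rgC (cT 15 up15 18) 2 0 = true := by decide +kernel
theorem t15_3 : rgC (cT 15 up15 18) 3 0 = true := by decide +kernel
theorem t15_4 : rgC (cT 15 up15 18) 4 1 = true := by decide +kernel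
theorem t15_6 : rgC (cT 15 up15 18) 6 1 = true := by decide +kernel
theorem t15_8 : rgC (cT 15 up15 18) 8 2 = true := by decide +kernel
theorem t15_11 : rgC (cT 15 up15 18) 11 5 = true := by decide +kernel
theorem t15_17 : rgC (cT 15 up15 18) 17 11 = true := by decide +kernel

theorem rT15 : Rg (cT 15 up15 18) 0 29 :=
  .cons 0 0 t15_0 <|
  .cons 1 0 t15_1 <|
  .cons 2 0 t15_2 <|
  .cons 3 0 t15_3 <|
  .cons 4 1 t15_4 <|
  .cons 6 1 t15_6 <|
  .cons 8 2 t15_8 <|
  .cons 11 5 t15_11 <|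
  .cons 17 11 t15_17 <|
  .nil _ _

end Vale.Agent.P236JL.C
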