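import Vale.Agent.P236JL.Ck
import Vale.Agent.P236JL.D.Up16

/-!
# P236JL / C : checks of the transposed tables (generated)
-/

namespace Vale.Agent.P236JL.C

open Vale.Agent.P236JL.D

theorem t16_0 : rgC (cT 16 up16 18) 0 0 = true := by decide +kernel
theorem t16_1 : rgC (cT 16 up16 18) 1 0 = true := by decide +kernel
theorem t16_2 : rgC (cT 16 up16 18) 2 1 = true := by decide +kernel
theorem t16_4 : rgC (cT 16 up16 18) 4 1 = true := by decide +kernel
theorem t16_6 : rgC (cT 16 up16 18) 6 1 = true := by decide +kernel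
theorem t16_8 : rgC (cT 16 up16 18) 8 2 = true := by decide +kernel
theorem t16_11 : rgC (cT 16 up16 18) 11 6 = true := by decide +kernel
theorem t16_18 : rgC (cT 16 up16 18) 18 7 = true := by decide +kernel

theorem rT16 : Rg (cT 16 up16 18) 0 26 :=
  .cons 0 0 t16_0 <|
  .cons 1 0 t16_1 <|
  .cons 2 1 t16_2 <|
  .cons 4 1 t16_4 <|
  .cons 6 1 t16_6 <|
  .cons 8 2 t16_8 <|
  .cons 11 6 t16_11 <|
  .cons 18 7 t16_18 <|
  .nil _ _

end Vale.Agent.P236JL.C
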