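import Vale.Agent.P236JL.Ck
import Vale.Agent.P236JL.D.Up17

/-!
# P236JL / C : checks of the transposed tables (generated)
-/

namespace Vale.Agent.P236JL.C

open Vale.Agent.P236JL.D

theorem t17_0 : rgC (cT 17 up17 17) 0 1 = true := by decide +kernel
theorem t17_2 : rgC (cT 17 up17 17) 2 1 = true := by decide +kernel
theorem t17_4 : rgC (cT 17 up17 17) 4 1 = true := by decide +kernel
theorem t17_6 : rgC (cT 17 up17 17) 6 2 = true := by decide +kernel
theorem t17_9 : rgC (cT 17 up17 17) 9 4 = true := by decide +kernel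
theorem t17_14 : rgC (cT 17 up17 17) 14 9 = true := by decide +kernel

theorem rT17 : Rg (cT 17 up17 17) 0 24 :=
  .cons 0 1 t17_0 <|
  .cons 2 1 t17_2 <|
  .cons 4 1 t17_4 <|
  .cons 6 2 t17_6 <|
  .cons 9 4 t17_9 <|
  .cons 14 9 t17_14 <|
  .nil _ _

end Vale.Agent.P236JL.C
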