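import Vale.Agent.P236JL.Ck
import Vale.Agent.P236JL.D.Up18

/-!
# P236JL / C : checks of the transposed tables (generated)
-/

namespace Vale.Agent.P236JL.C

open Vale.Agent.P236JL.D

theorem t18_0 : rgC (cT 18 up18 17) 0 1 = true := by decide +kernel
theorem t18_2 : rgC (cT 18 up18 17) 2 1 = true := by decide +kernel
theorem t18_4 : rgC (cT 18 up18 17) 4 1 = true := by decide +kernel
theorem t18_6 : rgC (cT 18 up18 17) 6 2 = true := by decide +kernel
theorem t18_9 : rgC (cT 18 up18 17) 9 5 = true := by decide +kernel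
theorem t18_15 : rgC (cT 18 up18 17) 15 8 = true := by decide +kernel

theorem rT18 : Rg (cT 18 up18 17) 0 24 :=
  .cons 0 1 t18_0 <|
  .cons 2 1 t18_2 <|
  .cons 4 1 t18_4 <|
  .cons 6 2 t18_6 <|
  .cons 9 5 t18_9 <|
  .cons 15 8 t18_15 <|
  .nil _ _

end Vale.Agent.P236JL.C
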