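import Vale.Agent.P236JL.Ck
import Vale.Agent.P236JL.D.Up19

/-!
# P236JL / C : checks of the transposed tables (generated)
-/

namespace Vale.Agent.P236JL.C

open Vale.Agent.P236JL.D

theorem t19_0 : rgC (cT 19 up19 16) 0 1 = true := by decide +kernel
theorem t19_2 : rgC (cT 19 up19 16) 2 1 = true := by decide +kernel
theorem t19_4 : rgC (cT 19 up19 16) 4 2 = true := by decide +kernel
theorem t19_7 : rgC (cT 19 up19 16) 7 3 = true := by decide +kernel
theorem t19_11 : rgC (cT 19 up19 16) 11 10 = true := by decide +kernel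
theorem t19_22 : rgC (cT 19 up19 16) 22 1 = true := by decide +kernel

theorem rT19 : Rg (cT 19 up19 16) 0 24 :=
  .cons 0 1 t19_0 <|
  .cons 2 1 t19_2 <|
  .cons 4 2 t19_4 <|
  .cons 7 3 t19_7 <|
  .cons 11 10 t19_11 <|
  .cons 22 1 t19_22 <|
  .nil _ _

end Vale.Agent.P236JL.C
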