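import Vale.Agent.P236JL.Ck
import Vale.Agent.P236JL.D.Up2

/-!
# P236JL / C : checks of the transposed tables (generated)
-/

namespace Vale.Agent.P236JL.C

open Vale.Agent.P236JL.D

theorem t2_0 : rgC (cT 2 up2 23) 0 0 = true := by decide +kernel
theorem t2_1 : rgC (cT 2 up2 23) 1 0 = true := by decide +kernel
theorem t2_2 : rgC (cT 2 up2 23) 2 0 = true := by decide +kernel
theorem t2_3 : rgC (cT 2 up2 23) 3 0 = true := by decide +kernel
theorem t2_4 : rgC (cT 2 up2 23) 4 0 = true := by decide +kernel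
theorem t2_5 : rgC (cT 2 up2 23) 5 0 = true := by decide +kernel
theorem t2_6 : rgC (cT 2 up2 23) 6 0 = true := by decide +kernel
theorem t2_7 : rgC (cT 2 up2 23) 7 0 = true := by decide +kernel
theorem t2_8 : rgC (cT 2 up2 23) 8 0 = true := by decide +kernel
theorem t2_9 : rgC (cT 2 up2 23) 9 0 = true := by decide +kernel
theorem t2_10 : rgC (cT 2 up2 23) 10 2 = true := by decide +kernel
theorem t2_13 : rgC (cT 2 up2 23) 13 2 = true := by decide +kernel

theorem rT2 : Rg (cT 2 up2 23) 0 16 :=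
  .cons 0 0 t2_0 <|
  .cons 1 0 t2_1 <|
  .cons 2 0 t2_2 <|
  .cons 3 0 t2_3 <|
  .cons 4 0 t2_4 <|
  .cons 5 0 t2_5 <|
  .cons 6 0 t2_6 <|
  .cons 7 0 t2_7 <|
  .cons 8 0 t2_8 <|
  .cons 9 0 t2_9 <|
  .cons 10 2 t2_10 <|
  .cons 13 2 t2_13 <|
  .nil _ _

end Vale.Agent.P236JL.C
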