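import Vale.Agent.P236JL.Ck
import Vale.Agent.P236JL.D.Up3

/-!
# P236JL / C : checks of the transposed tables (generated)
-/

namespace Vale.Agent.P236JL.C

open Vale.Agent.P236JL.D

theorem t3_0 : rgC (cT 3 up3 22) 0 0 = true := by decide +kernel
theorem t3_1 : rgC (cT 3 up3 22) 1 0 = true := by decide +kernel
theorem t3_2 : rgC (cT 3 up3 22) 2 0 = true := by decide +kernel
theorem t3_3 : rgC (cT 3 up3 22) 3 0 = true := by decide +kernel
theorem t3_4 : rgC (cT 3 up3 22) 4 0 = true := by decide +kernel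
theorem t3_5 : rgC (cT 3 up3 22) 5 0 = true := by decide +kernel
theorem t3_6 : rgC (cT 3 up3 22) 6 0 = true := by decide +kernel
theorem t3_7 : rgC (cT 3 up3 22) 7 0 = true := by decide +kernel
theorem t3_8 : rgC (cT 3 up3 22) 8 0 = true := by decide +kernel
theorem t3_9 : rgC (cT 3 up3 22) 9 0 = true := by decide +kernel
theorem t3_10 : rgC (cT 3 up3 22) 10 0 = true := by decide +kernel
theorem t3_11 : rgC (cT 3 up3 22) 11 0 = true := by decide +kernel
theorem t3_12 : rgC (cT 3 up3 22) 12 0 = true := by decide +kernel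
theorem t3_13 : rgC (cT 3 up3 22) 13 0 = true := by decide +kernel
theorem t3_14 : rgC (cT 3 up3 22) 14 0 = true := by decide +kernel
theorem t3_15 : rgC (cT 3 up3 22) 15 0 = true := by decide +kernel
theorem t3_16 : rgC (cT 3 up3 22) 16 0 = true := by decide +kernel
theorem t3_17 : rgC (cT 3 up3 22) 17 0 = true := by decide +kernel
theorem t3_18 : rgC (cT 3 up3 22) 18 1 = true := by decide +kernel
theorem t3_20 : rgC (cT 3 up3 22) 20 2 = true := by decide +kernel
theorem t3_23 : rgC (cT 3 up3 22) 23 7 = true := by decide +kernel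

theorem rT3 : Rg (cT 3 up3 22) 0 31 :=
  .cons 0 0 t3_0 <|
  .cons 1 0 t3_1 <|
  .cons 2 0 t3_2 <|
  .cons 3 0 t3_3 <|
  .cons 4 0 t3_4 <|
  .cons 5 0 t3_5 <|
  .cons 6 0 t3_6 <|
  .cons 7 0 t3_7 <|
  .cons 8 0 t3_8 <|
  .cons 9 0 t3_9 <|
  .cons 10 0 t3_10 <|
  .cons 11 0 t3_11 <|
  .cons 12 0 t3_12 <|
  .cons 13 0 t3_13 <|
  .cons 14 0 t3_14 <|
  .cons 15 0 t3_15 <|
  .cons 16 0 t3_16 <|
  .cons 17 0 t3_17 <|
  .cons 18 1 t3_18 <|
  .cons 20 2 t3_20 <|
  .cons 23 7 t3_23 <|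
  .nil _ _

end Vale.Agent.P236JL.C
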