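import Vale.Agent.P236JL.Ck
import Vale.Agent.P236JL.D.Up4

/-!
# P236JL / C : checks of the transposed tables (generated)
-/

namespace Vale.Agent.P236JL.C

open Vale.Agent.P236JL.D

theorem t4_0 : rgC (cT 4 up4 22) 0 0 = true := by decide +kernel
theorem t4_1 : rgC (cT 4 up4 22) 1 0 = true := by decide +kernel
theorem t4_2 : rgC (cT 4 up4 22) 2 0 = true := by decide +kernel
theorem t4_3 : rgC (cT 4 up4 22) 3 0 = true := by decide +kernel
theorem t4_4 : rgC (cT 4 up4 22) 4 0 = true := by decide +kernel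
theorem t4_5 : rgC (cT 4 up4 22) 5 0 = true := by decide +kernel
theorem t4_6 : rgC (cT 4 up4 22) 6 0 = true := by decide +kernel
theorem t4_7 : rgC (cT 4 up4 22) 7 0 = true := by decide +kernel
theorem t4_8 : rgC (cT 4 up4 22) 8 0 = true := by decide +kernel
theorem t4_9 : rgC (cT 4 up4 22) 9 0 = true := by decide +kernel
theorem t4_10 : rgC (cT 4 up4 22) 10 0 = true := by decide +kernel
theorem t4_11 : rgC (cT 4 up4 22) 11 0 = true := by decide +kernel
theorem t4_12 : rgC (cT 4 up4 22) 12 0 = true := by decide +kernel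
theorem t4_13 : rgC (cT 4 up4 22) 13 0 = true := by decide +kernel
theorem t4_14 : rgC (cT 4 up4 22) 14 0 = true := by decide +kernel
theorem t4_15 : rgC (cT 4 up4 22) 15 0 = true := by decide +kernel
theorem t4_16 : rgC (cT 4 up4 22) 16 0 = true := by decide +kernel
theorem t4_17 : rgC (cT 4 up4 22) 17 0 = true := by decide +kernel
theorem t4_18 : rgC (cT 4 up4 22) 18 0 = true := by decide +kernel
theorem t4_19 : rgC (cT 4 up4 22) 19 0 = true := by decide +kernel
theorem t4_20 : rgC (cT 4 up4 22) 20 0 = true := by decide +kernel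
theorem t4_21 : rgC (cT 4 up4 22) 21 1 = true := by decide +kernel
theorem t4_23 : rgC (cT 4 up4 22) 23 2 = true := by decide +kernel
theorem t4_26 : rgC (cT 4 up4 22) 26 3 = true := by decide +kernel
theorem t4_30 : rgC (cT 4 up4 22) 30 10 = true := by decide +kernel

theorem rT4 : Rg (cT 4 up4 22) 0 41 :=
  .cons 0 0 t4_0 <|
  .cons 1 0 t4_1 <|
  .cons 2 0 t4_2 <|
  .cons 3 0 t4_3 <|
  .cons 4 0 t4_4 <|
  .cons 5 0 t4_5 <|
  .cons 6 0 t4_6 <|
  .cons 7 0 t4_7 <|
  .cons 8 0 t4_8 <|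
  .cons 9 0 t4_9 <|
  .cons 10 0 t4_10 <|
  .cons 11 0 t4_11 <|
  .cons 12 0 t4_12 <|
  .cons 13 0 t4_13 <|
  .cons 14 0 t4_14 <|
  .cons 15 0 t4_15 <|
  .cons 16 0 t4_16 <|
  .cons 17 0 t4_17 <|
  .cons 18 0 t4_18 <|
  .cons 19 0 t4_19 <|
  .cons 20 0 t4_20 <|
  .cons 21 1 t4_21 <|
  .cons 23 2 t4_23 <|
  .cons 26 3 t4_26 <|
  .cons 30 10 t4_30 <|
  .nil _ _

end Vale.Agent.P236JL.C
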