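import Vale.Agent.P236JL.Ck
import Vale.Agent.P236JL.D.Up5

/-!
# P236JL / C : checks of the transposed tables (generated)
-/

namespace Vale.Agent.P236JL.C

open Vale.Agent.P236JL.D

theorem t5_0 : rgC (cT 5 up5 22) 0 0 = true := by decide +kernel
theorem t5_1 : rgC (cT 5 up5 22) 1 0 = true := by decide +kernel
theorem t5_2 : rgC (cT 5 up5 22) 2 0 = true := by decide +kernel
theorem t5_3 : rgC (cT 5 up5 22) 3 0 = true := by decide +kernel
theorem t5_4 : rgC (cT 5 up5 22) 4 0 = true := by decide +kernel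
theorem t5_5 : rgC (cT 5 up5 22) 5 0 = true := by decide +kernel
theorem t5_6 : rgC (cT 5 up5 22) 6 0 = true := by decide +kernel
theorem t5_7 : rgC (cT 5 up5 22) 7 0 = true := by decide +kernel
theorem t5_8 : rgC (cT 5 up5 22) 8 0 = true := by decide +kernel
theorem t5_9 : rgC (cT 5 up5 22) 9 0 = true := by decide +kernel
theorem t5_10 : rgC (cT 5 up5 22) 10 0 = true := by decide +kernel
theorem t5_11 : rgC (cT 5 up5 22) 11 0 = true := by decide +kernel
theorem t5_12 : rgC (cT 5 up5 22) 12 0 = true := by decide +kernel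
theorem t5_13 : rgC (cT 5 up5 22) 13 0 = true := by decide +kernel
theorem t5_14 : rgC (cT 5 up5 22) 14 0 = true := by decide +kernel
theorem t5_15 : rgC (cT 5 up5 22) 15 0 = true := by decide +kernel
theorem t5_16 : rgC (cT 5 up5 22) 16 0 = true := by decide +kernel
theorem t5_17 : rgC (cT 5 up5 22) 17 0 = true := by decide +kernel
theorem t5_18 : rgC (cT 5 up5 22) 18 0 = true := by decide +kernel
theorem t5_19 : rgC (cT 5 up5 22) 19 0 = true := by decide +kernel
theorem t5_20 : rgC (cT 5 up5 22) 20 1 = true := by decide +kernel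
theorem t5_22 : rgC (cT 5 up5 22) 22 2 = true := by decide +kernel
theorem t5_25 : rgC (cT 5 up5 22) 25 3 = true := by decide +kernel
theorem t5_29 : rgC (cT 5 up5 22) 29 4 = true := by decide +kernel
theorem t5_34 : rgC (cT 5 up5 22) 34 10 = true := by decide +kernel

theorem rT5 : Rg (cT 5 up5 22) 0 45 :=
  .cons 0 0 t5_0 <|
  .cons 1 0 t5_1 <|
  .cons 2 0 t5_2 <|
  .cons 3 0 t5_3 <|
  .cons 4 0 t5_4 <|
  .cons 5 0 t5_5 <|
  .cons 6 0 t5_6 <|
  .cons 7 0 t5_7 <|
  .cons 8 0 t5_8 <|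
  .cons 9 0 t5_9 <|
  .cons 10 0 t5_10 <|
  .cons 11 0 t5_11 <|
  .cons 12 0 t5_12 <|
  .cons 13 0 t5_13 <|
  .cons 14 0 t5_14 <|
  .cons 15 0 t5_15 <|
  .cons 16 0 t5_16 <|
  .cons 17 0 t5_17 <|
  .cons 18 0 t5_18 <|
  .cons 19 0 t5_19 <|
  .cons 20 1 t5_20 <|
  .cons 22 2 t5_22 <|
  .cons 25 3 t5_25 <|
  .cons 29 4 t5_29 <|
  .cons 34 10 t5_34 <|
  .nil _ _

end Vale.Agent.P236JL.C
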