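import Vale.Agent.P236JL.Ck
import Vale.Agent.P236JL.D.Up6

/-!
# P236JL / C : checks of the transposed tables (generated)
-/

namespace Vale.Agent.P236JL.C

open Vale.Agent.P236JL.D

theorem t6_0 : rgC (cT 6 up6 21) 0 0 = true := by decide +kernel
theorem t6_1 : rgC (cT 6 up6 21) 1 0 = true := by decide +kernel
theorem t6_2 : rgC (cT 6 up6 21) 2 0 = true := by decide +kernel
theorem t6_3 : rgC (cT 6 up6 21) 3 0 = true := by decide +kernel
theorem t6_4 : rgC (cT 6 up6 21) 4 0 = true := by decide +kernel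
theorem t6_5 : rgC (cT 6 up6 21) 5 0 = true := by decide +kernel
theorem t6_6 : rgC (cT 6 up6 21) 6 0 = true := by decide +kernel
theorem t6_7 : rgC (cT 6 up6 21) 7 0 = true := by decide +kernel
theorem t6_8 : rgC (cT 6 up6 21) 8 0 = true := by decide +kernel
theorem t6_9 : rgC (cT 6 up6 21) 9 0 = true := by decide +kernel
theorem t6_10 : rgC (cT 6 up6 21) 10 0 = true := by decide +kernel
theorem t6_11 : rgC (cT 6 up6 21) 11 0 = true := by decide +kernel
theorem t6_12 : rgC (cT 6 up6 21) 12 0 = true := by decide +kernel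
theorem t6_13 : rgC (cT 6 up6 21) 13 0 = true := by decide +kernel
theorem t6_14 : rgC (cT 6 up6 21) 14 0 = true := by decide +kernel
theorem t6_15 : rgC (cT 6 up6 21) 15 0 = true := by decide +kernel
theorem t6_16 : rgC (cT 6 up6 21) 16 1 = true := by decide +kernel
theorem t6_18 : rgC (cT 6 up6 21) 18 2 = true := by decide +kernel
theorem t6_21 : rgC (cT 6 up6 21) 21 3 = true := by decide +kernel
theorem t6_25 : rgC (cT 6 up6 21) 25 4 = true := by decide +kernel
theorem t6_30 : rgC (cT 6 up6 21) 30 10 = true := by decide +kernel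
theorem t6_41 : rgC (cT 6 up6 21) 41 2 = true := by decide +kernel

theorem rT6 : Rg (cT 6 up6 21) 0 44 :=
  .cons 0 0 t6_0 <|
  .cons 1 0 t6_1 <|
  .cons 2 0 t6_2 <|
  .cons 3 0 t6_3 <|
  .cons 4 0 t6_4 <|
  .cons 5 0 t6_5 <|
  .cons 6 0 t6_6 <|
  .cons 7 0 t6_7 <|
  .cons 8 0 t6_8 <|
  .cons 9 0 t6_9 <|
  .cons 10 0 t6_10 <|
  .cons 11 0 t6_11 <|
  .cons 12 0 t6_12 <|
  .cons 13 0 t6_13 <|
  .cons 14 0 t6_14 <|
  .cons 15 0 t6_15 <|
  .cons 16 1 t6_16 <|
  .cons 18 2 t6_18 <|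
  .cons 21 3 t6_21 <|
  .cons 25 4 t6_25 <|
  .cons 30 10 t6_30 <|
  .cons 41 2 t6_41 <|
  .nil _ _

end Vale.Agent.P236JL.C
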