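import Vale.Agent.P236JL.Ck
import Vale.Agent.P236JL.D.Up7

/-!
# P236JL / C : checks of the transposed tables (generated)
-/

namespace Vale.Agent.P236JL.C

open Vale.Agent.P236JL.D

theorem t7_0 : rgC (cT 7 up7 21) 0 0 = true := by decide +kernel
theorem t7_1 : rgC (cT 7 up7 21) 1 0 = true := by decide +kernel
theorem t7_2 : rgC (cT 7 up7 21) 2 0 = true := by decide +kernel
theorem t7_3 : rgC (cT 7 up7 21) 3 0 = true := by decide +kernel
theorem t7_4 : rgC (cT 7 up7 21) 4 0 = true := by decide +kernel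
theorem t7_5 : rgC (cT 7 up7 21) 5 0 = true := by decide +kernel
theorem t7_6 : rgC (cT 7 up7 21) 6 0 = true := by decide +kernel
theorem t7_7 : rgC (cT 7 up7 21) 7 0 = true := by decide +kernel
theorem t7_8 : rgC (cT 7 up7 21) 8 0 = true := by decide +kernel
theorem t7_9 : rgC (cT 7 up7 21) 9 0 = true := by decide +kernel
theorem t7_10 : rgC (cT 7 up7 21) 10 0 = true := by decide +kernel
theorem t7_11 : rgC (cT 7 up7 21) 11 0 = true := by decide +kernel
theorem t7_12 : rgC (cT 7 up7 21) 12 1 = true := by decide +kernel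
theorem t7_14 : rgC (cT 7 up7 21) 14 2 = true := by decide +kernel
theorem t7_17 : rgC (cT 7 up7 21) 17 3 = true := by decide +kernel
theorem t7_21 : rgC (cT 7 up7 21) 21 5 = true := by decide +kernel
theorem t7_27 : rgC (cT 7 up7 21) 27 12 = true := by decide +kernel
theorem t7_40 : rgC (cT 7 up7 21) 40 0 = true := by decide +kernel

theorem rT7 : Rg (cT 7 up7 21) 0 41 :=
  .cons 0 0 t7_0 <|
  .cons 1 0 t7_1 <|
  .cons 2 0 t7_2 <|
  .cons 3 0 t7_3 <|
  .cons 4 0 t7_4 <|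
  .cons 5 0 t7_5 <|
  .cons 6 0 t7_6 <|
  .cons 7 0 t7_7 <|
  .cons 8 0 t7_8 <|
  .cons 9 0 t7_9 <|
  .cons 10 0 t7_10 <|
  .cons 11 0 t7_11 <|
  .cons 12 1 t7_12 <|
  .cons 14 2 t7_14 <|
  .cons 17 3 t7_17 <|
  .cons 21 5 t7_21 <|
  .cons 27 12 t7_27 <|
  .cons 40 0 t7_40 <|
  .nil _ _

end Vale.Agent.P236JL.C
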