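import Vale.Agent.P236JL.Ck
import Vale.Agent.P236JL.D.Up8

/-!
# P236JL / C : checks of the transposed tables (generated)
-/

namespace Vale.Agent.P236JL.C

open Vale.Agent.P236JL.D

theorem t8_0 : rgC (cT 8 up8 21) 0 0 = true := by decide +kernel
theorem t8_1 : rgC (cT 8 up8 21) 1 0 = true := by decide +kernel
theorem t8_2 : rgC (cT 8 up8 21) 2 0 = true := by decide +kernel
theorem t8_3 : rgC (cT 8 up8 21) 3 0 = true := by decide +kernel
theorem t8_4 : rgC (cT 8 up8 21) 4 0 = true := by decide +kernel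
theorem t8_5 : rgC (cT 8 up8 21) 5 0 = true := by decide +kernel
theorem t8_6 : rgC (cT 8 up8 21) 6 0 = true := by decide +kernel
theorem t8_7 : rgC (cT 8 up8 21) 7 0 = true := by decide +kernel
theorem t8_8 : rgC (cT 8 up8 21) 8 0 = true := by decide +kernel
theorem t8_9 : rgC (cT 8 up8 21) 9 0 = true := by decide +kernel
theorem t8_10 : rgC (cT 8 up8 21) 10 0 = true := by decide +kernel
theorem t8_11 : rgC (cT 8 up8 21) 11 1 = true := by decide +kernel
theorem t8_13 : rgC (cT 8 up8 21) 13 2 = true := by decide +kernel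
theorem t8_16 : rgC (cT 8 up8 21) 16 2 = true := by decide +kernel
theorem t8_19 : rgC (cT 8 up8 21) 19 3 = true := by decide +kernel
theorem t8_23 : rgC (cT 8 up8 21) 23 4 = true := by decide +kernel
theorem t8_28 : rgC (cT 8 up8 21) 28 11 = true := by decide +kernel

theorem rT8 : Rg (cT 8 up8 21) 0 40 :=
  .cons 0 0 t8_0 <|
  .cons 1 0 t8_1 <|
  .cons 2 0 t8_2 <|
  .cons 3 0 t8_3 <|
  .cons 4 0 t8_4 <|
  .cons 5 0 t8_5 <|
  .cons 6 0 t8_6 <|
  .cons 7 0 t8_7 <|
  .cons 8 0 t8_8 <|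
  .cons 9 0 t8_9 <|
  .cons 10 0 t8_10 <|
  .cons 11 1 t8_11 <|
  .cons 13 2 t8_13 <|
  .cons 16 2 t8_16 <|
  .cons 19 3 t8_19 <|
  .cons 23 4 t8_23 <|
  .cons 28 11 t8_28 <|
  .nil _ _

end Vale.Agent.P236JL.C
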