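import Vale.Agent.P236JL.Ck
import Vale.Agent.P236JL.D.Up9

/-!
# P236JL / C : checks of the transposed tables (generated)
-/

namespace Vale.Agent.P236JL.C

open Vale.Agent.P236JL.D

theorem t9_0 : rgC (cT 9 up9 20) 0 0 = true := by decide +kernel
theorem t9_1 : rgC (cT 9 up9 20) 1 0 = true := by decide +kernel
theorem t9_2 : rgC (cT 9 up9 20) 2 0 = true := by decide +kernel
theorem t9_3 : rgC (cT 9 up9 20) 3 0 = true := by decide +kernel
theorem t9_4 : rgC (cT 9 up9 20) 4 0 = true := by decide +kernel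
theorem t9_5 : rgC (cT 9 up9 20) 5 0 = true := by decide +kernel
theorem t9_6 : rgC (cT 9 up9 20) 6 0 = true := by decide +kernel
theorem t9_7 : rgC (cT 9 up9 20) 7 0 = true := by decide +kernel
theorem t9_8 : rgC (cT 9 up9 20) 8 0 = true := by decide +kernel
theorem t9_9 : rgC (cT 9 up9 20) 9 0 = true := by decide +kernel
theorem t9_10 : rgC (cT 9 up9 20) 10 1 = true := by decide +kernel
theorem t9_12 : rgC (cT 9 up9 20) 12 2 = true := by decide +kernel
theorem t9_15 : rgC (cT 9 up9 20) 15 2 = true := by decide +kernel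
theorem t9_18 : rgC (cT 9 up9 20) 18 3 = true := by decide +kernel
theorem t9_22 : rgC (cT 9 up9 20) 22 4 = true := by decide +kernel
theorem t9_27 : rgC (cT 9 up9 20) 27 6 = true := by decide +kernel
theorem t9_34 : rgC (cT 9 up9 20) 34 8 = true := by decide +kernel

theorem rT9 : Rg (cT 9 up9 20) 0 43 :=
  .cons 0 0 t9_0 <|
  .cons 1 0 t9_1 <|
  .cons 2 0 t9_2 <|
  .cons 3 0 t9_3 <|
  .cons 4 0 t9_4 <|
  .cons 5 0 t9_5 <|
  .cons 6 0 t9_6 <|
  .cons 7 0 t9_7 <|
  .cons 8 0 t9_8 <|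
  .cons 9 0 t9_9 <|
  .cons 10 1 t9_10 <|
  .cons 12 2 t9_12 <|
  .cons 15 2 t9_15 <|
  .cons 18 3 t9_18 <|
  .cons 22 4 t9_22 <|
  .cons 27 6 t9_27 <|
  .cons 34 8 t9_34 <|
  .nil _ _

end Vale.Agent.P236JL.C
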