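import Vale.Agent.P236JL.Ck
import Vale.Agent.P236JL.D.Lo13
import Vale.Agent.P236JL.D.Rk

/-!
# P236JL / C : checks of the transposed tables (generated)
-/

namespace Vale.Agent.P236JL.C

open Vale.Agent.P236JL.D

theorem a13_0 : rgC (cA 13 lo13 rk) 0 58 = true := by decide +kernel
theorem a13_59 : rgC (cA 13 lo13 rk) 59 11 = true := by decide +kernel
theorem a13_71 : rgC (cA 13 lo13 rk) 71 5 = true := by decide +kernel
theorem a13_77 : rgC (cA 13 lo13 rk) 77 4 = true := by decide +kernel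
theorem a13_82 : rgC (cA 13 lo13 rk) 82 2 = true := by decide +kernel
theorem a13_85 : rgC (cA 13 lo13 rk) 85 2 = true := by decide +kernel
theorem a13_88 : rgC (cA 13 lo13 rk) 88 1 = true := by decide +kernel
theorem a13_90 : rgC (cA 13 lo13 rk) 90 0 = true := by decide +kernel

theorem rA13 : Rg (cA 13 lo13 rk) 0 91 :=
  .cons 0 58 a13_0 <|
  .cons 59 11 a13_59 <|
  .cons 71 5 a13_71 <|
  .cons 77 4 a13_77 <|
  .cons 82 2 a13_82 <|
  .cons 85 2 a13_85 <|
  .cons 88 1 a13_88 <|
  .cons 90 0 a13_90 <|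
  .nil _ _

end Vale.Agent.P236JL.C
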