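import Vale.Agent.P236JL.Ck
import Vale.Agent.P236JL.D.Up10

/-!
# P236JL / C : checks of the transposed tables (generated)
-/

namespace Vale.Agent.P236JL.C

open Vale.Agent.P236JL.D

theorem t10_0 : rgC (cT 10 up10 20) 0 0 = true := by decide +kernel
theorem t10_1 : rgC (cT 10 up10 20) 1 0 = true := by decide +kernel
theorem t10_2 : rgC (cT 10 up10 20) 2 0 = true := by decide +kernel
theorem t10_3 : rgC (cT 10 up10 20) 3 0 = true := by decide +kernel
theorem t10_4 : rgC (cT 10 up10 20) 4 0 = true := by decide +kernel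
theorem t10_5 : rgC (cT 10 up10 20) 5 0 = true := by decide +kernel
theorem t10_6 : rgC (cT 10 up10 20) 6 0 = true := by decide +kernel
theorem t10_7 : rgC (cT 10 up10 20) 7 0 = true := by decide +kernel
theorem t10_8 : rgC (cT 10 up10 20) 8 0 = true := by decide +kernel
theorem t10_9 : rgC (cT 10 up10 20) 9 0 = true := by decide +kernel
theorem t10_10 : rgC (cT 10 up10 20) 10 1 = true := by decide +kernel
theorem t10_12 : rgC (cT 10 up10 20) 12 2 = true := by decide +kernel
theorem t10_15 : rgC (cT 10 up10 20) 15 2 = true := by decide +kernel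
theorem t10_18 : rgC (cT 10 up10 20) 18 3 = true := by decide +kernel
theorem t10_22 : rgC (cT 10 up10 20) 22 4 = true := by decide +kernel
theorem t10_27 : rgC (cT 10 up10 20) 27 5 = true := by decide +kernel
theorem t10_33 : rgC (cT 10 up10 20) 33 10 = true := by decide +kernel

theorem rT10 : Rg (cT 10 up10 20) 0 44 :=
  .cons 0 0 t10_0 <|
  .cons 1 0 t10_1 <|
  .cons 2 0 t10_2 <|
  .cons 3 0 t10_3 <|
  .cons 4 0 t10_4 <|
  .cons 5 0 t10_5 <|
  .cons 6 0 t10_6 <|
  .cons 7 0 t10_7 <|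
  .cons 8 0 t10_8 <|
  .cons 9 0 t10_9 <|
  .cons 10 1 t10_10 <|
  .cons 12 2 t10_12 <|
  .cons 15 2 t10_15 <|
  .cons 18 3 t10_18 <|
  .cons 22 4 t10_22 <|
  .cons 27 5 t10_27 <|
  .cons 33 10 t10_33 <|
  .nil _ _

end Vale.Agent.P236JL.C
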